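import Mathlib
import Vale.Agent.Lib.P052.Main

/-!
# Borsuk's conjecture fails in dimension 63

There is a finite set of positive diameter in Euclidean 63-space that cannot be
covered by 64 sets of strictly smaller diameter.

The configuration: the 416 columns of `4A + 16I - J` (`A` the adjacency matrix of the
strongly regular graph with parameters `(416, 100, 36, 20)`) span a 65-dimensional
space.  Two `±1` eigenvectors of `A` cut out 320 columns lying in a 63-dimensional
subspace; together with a suitably scaled orthogonal projection of one further column
they form a 321-point set in which any six points contain two at maximal distance.
Hence every part of smaller diameter has at most five points and 64 parts cover at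
most 320 points.  The matrix identities (idempotency up to scale, trace, entries,
absence of six-cliques) are verified by kernel computation in `Vale.Agent.Lib.P052`.
-/

namespace Vale.Agent.Results.P052.BorsukFailsDim63

/-- There is a finite set `Y` of positive diameter in Euclidean 63-space that is not a
union of 64 sets each of diameter strictly smaller than the diameter of `Y`. -/
theorem result :
    ∃ Y : Set (EuclideanSpace ℝ (Fin 63)), Y.Finite ∧ 0 < Metric.diam Y ∧
      ¬ ∃ P : Fin 64 → Set (EuclideanSpace ℝ (Fin 63)),
        (⋃ i, P i) = Y ∧ ∀ i, Metric.diam (P i) < Metric.diam Y :=
  Vale.Agent.Lib.P052.borsuk_dim63

end Vale.Agent.Results.P052.BorsukFailsDim63
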