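import Mathlib

namespace Vale.Agent.Results.P052.CircumradiusClass

open Finset

/-- If the coordinates of `z` sum to zero and `z i` is a largest coordinate,
then the sum of squares is at most `d (d+1) (z i)^2`. -/
lemma sum_sq_le_of_max {d : ℕ} (z : Fin (d + 1) → ℝ) (hz : ∑ j, z j = 0) (i : Fin (d + 1))
    (hi : ∀ j, z j ≤ z i) : ∑ j, (z j) ^ 2 ≤ (d : ℝ) * (d + 1) * (z i) ^ 2 := by
  have h1 : ∑ j, (z i - z j) = (d + 1) * z i := by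
    simp [Finset.sum_sub_distrib, hz]
  have h2 : ∑ j, (z i - z j) ^ 2 ≤ (∑ j, (z i - z j)) ^ 2 :=
    Finset.sum_sq_le_sq_sum_of_nonneg (fun j _ => sub_nonneg.mpr (hi j))
  have h3 : ∑ j, (z i - z j) ^ 2
      = (d + 1) * (z i) ^ 2 - 2 * z i * ∑ j, z j + ∑ j, (z j) ^ 2 := by
    simp only [sub_sq, Finset.sum_add_distrib, Finset.sum_sub_distrib, ← Finset.mul_sum]
    simp
  rw [h1] at h2
  rw [h3, hz] at h2
  nlinarith

/-- If the coordinates of `w` sum to zero then `(d+1) (w i)^2 ≤ d * ∑ (w j)^2`. -/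
lemma coord_sq_le {d : ℕ} (w : Fin (d + 1) → ℝ) (hw : ∑ j, w j = 0) (i : Fin (d + 1)) :
    ((d : ℝ) + 1) * (w i) ^ 2 ≤ (d : ℝ) * ∑ j, (w j) ^ 2 := by
  have h1 : ∑ j ∈ Finset.univ.erase i, w j = - w i := by
    have := Finset.add_sum_erase Finset.univ w (Finset.mem_univ i)
    linarith
  have h2 : (∑ j ∈ Finset.univ.erase i, w j) ^ 2
      ≤ ((Finset.univ.erase i).card : ℝ) * ∑ j ∈ Finset.univ.erase i, (w j) ^ 2 :=
    sq_sum_le_card_mul_sum_sq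
  have h3 : ((Finset.univ.erase i).card : ℝ) = d := by
    simp [Finset.card_erase_of_mem]
  have h4 : ∑ j ∈ Finset.univ.erase i, (w j) ^ 2 = ∑ j, (w j) ^ 2 - (w i) ^ 2 := by
    have := Finset.add_sum_erase Finset.univ (fun j => (w j) ^ 2) (Finset.mem_univ i)
    linarith
  rw [h1, h3, h4] at h2
  nlinarith

lemma real_aux1 (a b K u v : ℝ) (ha : 0 ≤ a) (hb : 0 ≤ b) (hK : 0 ≤ K) (hu : 0 ≤ u) (hv : 0 ≤ v)
    (hA : a ^ 2 ≤ K * u ^ 2) (hB : b ^ 2 ≤ K * v ^ 2) : (a + b) ^ 2 ≤ K * (u + v) ^ 2 := by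
  have hab : a * b ≤ K * (u * v) := by
    have h0 : 0 ≤ K * (u * v) := by positivity
    refine (sq_le_sq₀ (mul_nonneg ha hb) h0).mp ?_
    calc (a * b) ^ 2 = a ^ 2 * b ^ 2 := by ring
      _ ≤ (K * u ^ 2) * (K * v ^ 2) := mul_le_mul hA hB (by positivity) (by positivity)
      _ = (K * (u * v)) ^ 2 := by ring
  nlinarith

lemma real_aux2 (a b R D N : ℝ) (ha : 0 ≤ a) (hb : 0 ≤ b) (haR : a ≤ R) (hbR : b ≤ R)
    (hD : 4 ≤ D) (hN : (a + b) ^ 2 ≤ D * N) :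
    D * (2 * a ^ 2 + 2 * b ^ 2 - N) ≤ 4 * R ^ 2 * (D - 1) := by
  have h1 : 0 ≤ R - a := by linarith
  have h2 : 0 ≤ R - b := by linarith
  have hg : 0 ≤ 12 * R ^ 2 - 8 * a ^ 2 - 8 * b ^ 2 + (a + b) ^ 2 := by
    nlinarith [mul_nonneg h1 (by linarith : 0 ≤ 6 * R + 7 * a - b),
      mul_nonneg h2 (by linarith : 0 ≤ 6 * R + 7 * b - a)]
  have hq : 0 ≤ 4 * R ^ 2 - 2 * a ^ 2 - 2 * b ^ 2 := by nlinarith
  nlinarith [mul_nonneg (sub_nonneg.mpr hD) hq]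

/-- Two points of the ball of radius `R` in the sum-zero hyperplane of `ℝ^(d+1)` whose largest
coordinate has the same index are at distance at most `2 R sqrt (1 - 1/d^2)`. -/
lemma norm_sub_sq_le {d : ℕ} (hd : 2 ≤ d) (z z' : EuclideanSpace ℝ (Fin (d + 1)))
    (hz : ∑ j, z j = 0) (hz' : ∑ j, z' j = 0) (i : Fin (d + 1))
    (hi : ∀ j, z j ≤ z i) (hi' : ∀ j, z' j ≤ z' i) (R : ℝ)
    (hR : ‖z‖ ≤ R) (hR' : ‖z'‖ ≤ R) :
    ‖z - z'‖ ^ 2 ≤ 4 * R ^ 2 * (1 - 1 / (d : ℝ) ^ 2) := by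
  have hd2 : (2 : ℝ) ≤ d := by exact_mod_cast hd
  have hdpos : (0 : ℝ) < d := by linarith
  have ha0 : 0 ≤ ‖z‖ := norm_nonneg _
  have hb0 : 0 ≤ ‖z'‖ := norm_nonneg _
  have ha2 : ‖z‖ ^ 2 = ∑ j, (z j) ^ 2 := EuclideanSpace.real_norm_sq_eq z
  have hb2 : ‖z'‖ ^ 2 = ∑ j, (z' j) ^ 2 := EuclideanSpace.real_norm_sq_eq z'
  have hzi : 0 ≤ z i := by
    have : ∑ j, z j ≤ ∑ _j : Fin (d + 1), z i := Finset.sum_le_sum (fun j _ => hi j)
    simp [hz] at this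
    nlinarith
  have hzi' : 0 ≤ z' i := by
    have : ∑ j, z' j ≤ ∑ _j : Fin (d + 1), z' i := Finset.sum_le_sum (fun j _ => hi' j)
    simp [hz'] at this
    nlinarith
  have hA : ‖z‖ ^ 2 ≤ (d : ℝ) * (d + 1) * (z i) ^ 2 := by
    rw [ha2]; exact sum_sq_le_of_max (fun j => z j) hz i hi
  have hB : ‖z'‖ ^ 2 ≤ (d : ℝ) * (d + 1) * (z' i) ^ 2 := by
    rw [hb2]; exact sum_sq_le_of_max (fun j => z' j) hz' i hi'
  have hK : (0 : ℝ) ≤ (d : ℝ) * (d + 1) := by positivity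
  have hsum : (‖z‖ + ‖z'‖) ^ 2 ≤ (d : ℝ) * (d + 1) * (z i + z' i) ^ 2 :=
    real_aux1 _ _ _ _ _ ha0 hb0 hK hzi hzi' hA hB
  have hw : ∑ j, (z + z') j = 0 := by
    simp [Finset.sum_add_distrib, hz, hz']
  have hC := coord_sq_le (fun j => (z + z') j) hw i
  have hN : ‖z + z'‖ ^ 2 = ∑ j, ((z + z') j) ^ 2 := EuclideanSpace.real_norm_sq_eq (z + z')
  rw [← hN] at hC
  have hC' : ((d : ℝ) + 1) * (z i + z' i) ^ 2 ≤ (d : ℝ) * ‖z + z'‖ ^ 2 := by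
    simpa using hC
  have hN2 : (‖z‖ + ‖z'‖) ^ 2 ≤ (d : ℝ) ^ 2 * ‖z + z'‖ ^ 2 := by
    calc (‖z‖ + ‖z'‖) ^ 2 ≤ (d : ℝ) * (d + 1) * (z i + z' i) ^ 2 := hsum
      _ = (d : ℝ) * (((d : ℝ) + 1) * (z i + z' i) ^ 2) := by ring
      _ ≤ (d : ℝ) * ((d : ℝ) * ‖z + z'‖ ^ 2) := mul_le_mul_of_nonneg_left hC' hdpos.le
      _ = (d : ℝ) ^ 2 * ‖z + z'‖ ^ 2 := by ring
  have hpar : ‖z - z'‖ ^ 2 = 2 * ‖z‖ ^ 2 + 2 * ‖z'‖ ^ 2 - ‖z + z'‖ ^ 2 := by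
    have := parallelogram_law_with_norm ℝ z z'
    linarith
  have hd4 : (4 : ℝ) ≤ (d : ℝ) ^ 2 := by nlinarith
  have hmain : (d : ℝ) ^ 2 * ‖z - z'‖ ^ 2 ≤ 4 * R ^ 2 * ((d : ℝ) ^ 2 - 1) := by
    rw [hpar]
    exact real_aux2 _ _ R _ _ ha0 hb0 hR hR' hd4 hN2
  have hd2pos : (0 : ℝ) < (d : ℝ) ^ 2 := by positivity
  have : 4 * R ^ 2 * (1 - 1 / (d : ℝ) ^ 2) = 4 * R ^ 2 * ((d : ℝ) ^ 2 - 1) / (d : ℝ) ^ 2 := by
    field_simp
  rw [this, le_div_iff₀ hd2pos]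
  linarith

open EuclideanSpace in
/-- **Borsuk's conjecture for sets of small circumradius.**  Let `d ≥ 2` and let `Y` be a nonempty
subset of `ℝ^d` contained in a closed ball of radius `R` with
`2 R sqrt (1 - 1/d^2) < diam Y`.  Then `Y` is a union of `d + 1` subsets, each of diameter
strictly smaller than `diam Y`. -/
theorem result (d : ℕ) (hd : 2 ≤ d) (Y : Set (EuclideanSpace ℝ (Fin d)))
    (c : EuclideanSpace ℝ (Fin d)) (R : ℝ) (hne : Y.Nonempty)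
    (hY : Y ⊆ Metric.closedBall c R)
    (hR : 2 * R * Real.sqrt (1 - 1 / (d : ℝ) ^ 2) < Metric.diam Y) :
    ∃ P : Fin (d + 1) → Set (EuclideanSpace ℝ (Fin d)),
      Y = ⋃ i, P i ∧ ∀ i, Metric.diam (P i) < Metric.diam Y := by
  classical
  set v : EuclideanSpace ℝ (Fin (d + 1)) := WithLp.toLp 2 (fun _ => (1 : ℝ)) with hvdef
  have hv : v ≠ 0 := by
    intro h
    have : v 0 = 0 := by rw [h]; rfl
    simp [hvdef] at this
  let B := OrthonormalBasis.fromOrthogonalSpanSingleton (𝕜 := ℝ) d hv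
  let φ : EuclideanSpace ℝ (Fin d) →ₗᵢ[ℝ] EuclideanSpace ℝ (Fin (d + 1)) :=
    (Submodule.subtypeₗᵢ (ℝ ∙ v)ᗮ).comp B.repr.symm.toLinearIsometry
  have hsum : ∀ u, ∑ j, φ u j = 0 := by
    intro u
    have hmem : φ u ∈ (ℝ ∙ v)ᗮ := (B.repr.symm u).2
    have := Submodule.mem_orthogonal_singleton_iff_inner_right.mp hmem
    simpa [hvdef, PiLp.inner_apply] using this
  obtain ⟨y₀, hy₀⟩ := hne
  have hR0 : 0 ≤ R := le_trans dist_nonneg (Metric.mem_closedBall.mp (hY hy₀))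
  have hd2 : (2 : ℝ) ≤ d := by exact_mod_cast hd
  have hs0 : 0 ≤ 1 - 1 / (d : ℝ) ^ 2 := by
    have : 1 / (d : ℝ) ^ 2 ≤ 1 := by
      rw [div_le_one (by positivity)]
      nlinarith
    linarith
  set ρ := 2 * R * Real.sqrt (1 - 1 / (d : ℝ) ^ 2) with hρ
  have hρ0 : 0 ≤ ρ := by positivity
  have hρ2 : ρ ^ 2 = 4 * R ^ 2 * (1 - 1 / (d : ℝ) ^ 2) := by
    rw [hρ, mul_pow, mul_pow, Real.sq_sqrt hs0]; ring
  refine ⟨fun i => {y | y ∈ Y ∧ ∀ j, φ (y - c) j ≤ φ (y - c) i}, ?_, ?_⟩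
  · ext y
    simp only [Set.mem_iUnion, Set.mem_ofPred_eq]
    constructor
    · intro hy
      obtain ⟨i, hi⟩ := Finite.exists_max (fun j => φ (y - c) j)
      exact ⟨i, hy, hi⟩
    · rintro ⟨i, hy, _⟩
      exact hy
  · intro i
    have hle : Metric.diam {y | y ∈ Y ∧ ∀ j, φ (y - c) j ≤ φ (y - c) i} ≤ ρ := by
      refine Metric.diam_le_of_forall_dist_le hρ0 ?_
      rintro y ⟨hy, hyi⟩ y' ⟨hy', hyi'⟩
      have hn : ‖φ (y - c)‖ ≤ R := by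
        rw [φ.norm_map, ← dist_eq_norm]
        exact Metric.mem_closedBall.mp (hY hy)
      have hn' : ‖φ (y' - c)‖ ≤ R := by
        rw [φ.norm_map, ← dist_eq_norm]
        exact Metric.mem_closedBall.mp (hY hy')
      have hkey := norm_sub_sq_le hd (φ (y - c)) (φ (y' - c)) (hsum _) (hsum _) i hyi hyi' R hn hn'
      have hdist : dist y y' = ‖φ (y - c) - φ (y' - c)‖ := by
        rw [← φ.map_sub, φ.norm_map, dist_eq_norm]
        congr 1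
        abel
      rw [hdist]
      refine (sq_le_sq₀ (norm_nonneg _) hρ0).mp ?_
      rw [hρ2]
      exact hkey
    exact lt_of_le_of_lt hle hR

end Vale.Agent.Results.P052.CircumradiusClass
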