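import Vale.Agent.Lib.P052.HermFacts
import Vale.Agent.Lib.P052.CliqueSound

/-!
# Borsuk's conjecture fails in dimension 63 (P052)

There is a finite set `Y` in Euclidean 63-space, of positive diameter, such that whenever `Y` is
the union of 64 sets, one of these sets has diameter at least the diameter of `Y`.  So `Y` is not
a union of `63 + 1` sets of smaller diameter.

The set has 321 points.  Its first 320 points are the points of the two-distance configuration of
the strongly regular graph with parameters (416, 100, 36, 20) (here built on the 416 orthonormal
bases of the Hermitian space of dimension 3 over the field with 16 elements) that lie on two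
independent linear hyperplanes of the 65-dimensional eigenspace; the last point is the rescaled
orthogonal projection of one further point of the configuration.  Two points at distance less
than the diameter are adjacent in the graph, the graph has no clique with 6 vertices, and
`321 > 5 * 64`.  All facts about the graph are checked by kernel evaluation.
-/

namespace Vale.Agent.Results.P052.Dimension63

open Vale.Agent.Lib.P052

theorem result :
    ∃ Y : Set (EuclideanSpace ℝ (Fin 63)), Y.Finite ∧ 0 < Metric.diam Y ∧
      ∀ P : Fin 64 → Set (EuclideanSpace ℝ (Fin 63)), (⋃ i, P i) = Y →
        ∃ i, Metric.diam Y ≤ Metric.diam (P i) :=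
  borsuk63_of_data hermAdj herm_symm herm_irrefl herm_srg
    (fun S h1 h2 => Clq.noClique6_herm S h1 h2)
    hermCa hermCb (Finset.range 320)
    (fun v hv => by have := Finset.mem_range.mp hv; omega) (by simp)
    herm_hTa herm_hTb 320 (by norm_num) (by simp) 320 384 (by norm_num) (by norm_num) herm_hdet

end Vale.Agent.Results.P052.Dimension63
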